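import Vale.Agent.P286ER.IF
import Vale.Agent.P286EF.Ls

/-!
# Riemann-Roch and Serre duality for a lattice over a field
-/

namespace Vale.Agent.P286ER3

open Matrix Module Vale.Agent.P286 Vale.Agent.P286E Vale.Agent.P286ER

noncomputable section

attribute [-instance] HahnSeries.powerSeriesAlgebra

section Lin

variable {F V X Y : Type} [Field F] [AddCommGroup V] [Module F V] [AddCommGroup X] [Module F X]
  [AddCommGroup Y] [Module F Y]

/-- The pair `M`, `A` has finite dimensional cohomology. -/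
def Fr (M A : Submodule F V) : Prop :=
  FiniteDimensional F ↥(M ⊓ A) ∧ FiniteDimensional F (V ⧸ (M ⊔ A))

/-- The index of the pair `M`, `A`. -/
def ix (M A : Submodule F V) : ℤ := (finrank F ↥(M ⊓ A) : ℤ) - finrank F (V ⧸ (M ⊔ A))

/-- The kernel of a composition. -/
def kerE {f : X →ₗ[F] V} (g : V →ₗ[F] Y) (hf : Function.Injective f) :
    LinearMap.ker (g ∘ₗ f) ≃ₗ[F] ↥(LinearMap.range f ⊓ LinearMap.ker g) :=
  (Submodule.equivMapOfInjective f hf _).trans
    (LinearEquiv.ofEq _ _ (by rw [LinearMap.ker_comp, Submodule.map_comap_eq]))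

/-- The cokernel of a composition. -/
def cokE (f : X →ₗ[F] V) {g : V →ₗ[F] Y} (hg : Function.Surjective g) :
    (V ⧸ (LinearMap.range f ⊔ LinearMap.ker g)) ≃ₗ[F] (Y ⧸ LinearMap.range (g ∘ₗ f)) :=
  (Submodule.quotEquivOfEq _ _ (by
    rw [LinearMap.ker_comp, Submodule.ker_mkQ, LinearMap.range_comp,
      Submodule.comap_map_eq])).trans
    (LinearMap.quotKerEquivOfSurjective ((LinearMap.range (g ∘ₗ f)).mkQ ∘ₗ g)
      ((Submodule.mkQ_surjective _).comp hg))

theorem fr_iff {f : X →ₗ[F] V} {g : V →ₗ[F] Y} (hf : Function.Injective f)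
    (hg : Function.Surjective g) {M A : Submodule F V} (hM : LinearMap.range f = M)
    (hA : LinearMap.ker g = A) : Fr M A ↔ FiniteDimensional F (LinearMap.ker (g ∘ₗ f)) ∧
      FiniteDimensional F (Y ⧸ LinearMap.range (g ∘ₗ f)) := by
  subst hM hA
  exact and_congr (Module.Finite.equiv_iff (kerE g hf)).symm (Module.Finite.equiv_iff (cokE f hg))

theorem ix_eq {f : X →ₗ[F] V} {g : V →ₗ[F] Y} (hf : Function.Injective f)
    (hg : Function.Surjective g) {M A : Submodule F V} (hM : LinearMap.range f = M)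
    (hA : LinearMap.ker g = A) : ix M A = (g ∘ₗ f).index := by
  subst hM hA
  rw [ix, LinearMap.index_eq_finrank_sub, (kerE g hf).finrank_eq, (cokE f hg).finrank_eq]

theorem index_one_add {U : X →ₗ[F] X} {W : Submodule F X} [FiniteDimensional F W]
    (h : ∀ x, U x - x ∈ W) : FiniteDimensional F (LinearMap.ker U) ∧
      FiniteDimensional F (X ⧸ LinearMap.range U) ∧ U.index = 0 := by
  have h1 : FiniteDimensional F (LinearMap.ker U) :=
    Submodule.finiteDimensional_of_le (S₂ := W) fun x hx => by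
      have h2 := h x
      rwa [LinearMap.mem_ker.1 hx, zero_sub, neg_mem_iff] at h2
  have h2 : FiniteDimensional F (X ⧸ LinearMap.range U) :=
    Submodule.FG.cofg_of_codisjoint (S := W) (codisjoint_iff.2 (eq_top_iff.2 fun x _ =>
      Submodule.mem_sup.2 ⟨-(U x - x), neg_mem (h x), U x, ⟨x, rfl⟩, by abel⟩))
      (Module.Finite.iff_fg.1 inferInstance)
  have h3 : FiniteDimensional F (LinearMap.ker W.mkQ) := by rw [Submodule.ker_mkQ]; infer_instance
  have h4 : FiniteDimensional F ((X ⧸ W) ⧸ LinearMap.range W.mkQ) := by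
    rw [Submodule.range_mkQ]; infer_instance
  have h5 := LinearMap.index_comp (f := U) W.mkQ
  rw [show W.mkQ ∘ₗ U = W.mkQ from LinearMap.ext fun x => (Submodule.Quotient.eq W).2 (h x)] at h5
  exact ⟨h1, h2, by omega⟩

theorem step {M A B : Submodule F V} {n : ℕ} (e : (Fin n → F) →ₗ[F] V)
    (hB : B = LinearMap.range e ⊔ A) (he : ∀ c, e c ∈ A → c = 0) :
    (Fr M A ↔ Fr M B) ∧ (Fr M A → ix M B = ix M A + n) := by
  have hAB : A ≤ B := hB ▸ le_sup_right
  have h1 : LinearMap.ker (Submodule.factor hAB) = LinearMap.range (A.mkQ ∘ₗ e) := by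
    rw [Submodule.factor, Submodule.ker_mapQ, Submodule.comap_id, hB, Submodule.map_sup,
      Submodule.mkQ_map_self, sup_bot_eq, LinearMap.range_comp]
  have h2 : FiniteDimensional F (LinearMap.ker (Submodule.factor hAB)) := by
    rw [h1]; infer_instance
  have h3 : Function.Surjective (Submodule.factor hAB) := Submodule.factor_surjective hAB
  have h4 : FiniteDimensional F ((V ⧸ B) ⧸ LinearMap.range (Submodule.factor hAB)) := by
    rw [LinearMap.range_eq_top.2 h3]; infer_instance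
  have h5 : B.mkQ ∘ₗ M.subtype = Submodule.factor hAB ∘ₗ (A.mkQ ∘ₗ M.subtype) := rfl
  have hA := fr_iff M.subtype_injective A.mkQ_surjective M.range_subtype A.ker_mkQ
  refine ⟨⟨fun h => ?_, fun h => ⟨?_, ?_⟩⟩, fun h => ?_⟩
  · obtain ⟨h6, h7⟩ := hA.1 h
    rw [fr_iff M.subtype_injective B.mkQ_surjective M.range_subtype B.ker_mkQ, h5]
    exact ⟨by rw [LinearMap.ker_comp]; infer_instance,
      by rw [LinearMap.range_comp]; infer_instance⟩
  · have := h.1
    exact Submodule.finiteDimensional_of_le (inf_le_inf_left M hAB)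
  · have := h.2
    have h6 : FiniteDimensional F
        ((V ⧸ (M ⊔ A)) ⧸ (LinearMap.range e).map (M ⊔ A).mkQ) :=
      Module.Finite.equiv ((Submodule.quotientQuotientEquivQuotientSup (M ⊔ A) _).trans
        (Submodule.quotEquivOfEq _ (M ⊔ B) (by rw [hB, sup_assoc, sup_comm A]))).symm
    exact Module.Finite.of_submodule_quotient ((LinearMap.range e).map (M ⊔ A).mkQ)
  · obtain ⟨h6, h7⟩ := hA.1 h
    rw [ix_eq M.subtype_injective B.mkQ_surjective M.range_subtype B.ker_mkQ,
      ix_eq M.subtype_injective A.mkQ_surjective M.range_subtype A.ker_mkQ, h5,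
      LinearMap.index_comp, LinearMap.index_of_surjective h3, h1,
      LinearMap.finrank_range_of_inj (LinearMap.ker_eq_bot.1 (LinearMap.ker_eq_bot'.2 fun c hc =>
        he c ((Submodule.Quotient.mk_eq_zero A).1 hc))), finrank_fin_fun, add_comm]

theorem dual_le (B : V →ₗ[F] V →ₗ[F] F) (hB : ∀ u, (∀ w, B u w = 0) → u = 0)
    {S T : Submodule F V} [FiniteDimensional F (V ⧸ T)] (h : ∀ u ∈ S, ∀ w ∈ T, B u w = 0) :
    FiniteDimensional F S ∧ finrank F S ≤ finrank F (V ⧸ T) := by
  let D : S →ₗ[F] Dual F (V ⧸ T) := T.dualQuotEquivDualAnnihilator.symm.toLinearMap ∘ₗ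
    (B ∘ₗ S.subtype).codRestrict T.dualAnnihilator
      fun u => (Submodule.mem_dualAnnihilator _).2 (h u u.2)
  have hD : Function.Injective D := by
    refine (injective_iff_map_eq_zero D).2 fun u hu => Subtype.ext (hB u fun w => ?_)
    have h1 := T.dualQuotEquivDualAnnihilator.symm.map_eq_zero_iff.1 hu
    exact LinearMap.congr_fun (congrArg Subtype.val h1) w
  exact ⟨Module.Finite.of_injective D hD,
    (LinearMap.finrank_le_finrank_of_injective hD).trans Subspace.dual_finrank_eq.le⟩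

end Lin

variable {F : Type} [Field F] {N : ℕ}

theorem mem_On {A : Type} [CommRing A] {n : ℤ} {w : Fin N → Ls A} :
    w ∈ On N A n ↔ ∀ i, Ord n (w i) := Iff.rfl

theorem exists_On {A : Type} [CommRing A] (w : Fin N → Ls A) : ∃ n, w ∈ On N A n := by
  choose k hk using fun i => exists_ord (w i)
  obtain ⟨n, hn⟩ := (Set.finite_range k).bddBelow
  exact ⟨n, fun i => (hk i).mono (hn ⟨i, rfl⟩)⟩

theorem On_mono {A : Type} [CommRing A] {m n : ℤ} (h : m ≤ n) : On N A n ≤ On N A m :=
  fun _ hw i => (hw i).mono h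

/-- The constant vectors times `tⁿ`. -/
def lev (N : ℕ) (A : Type) [CommRing A] (n : ℤ) : (Fin N → A) →ₗ[A] (Fin N → Ls A) where
  toFun c i := HahnSeries.single n (c i)
  map_add' c c' := funext fun i => HahnSeries.single_add n (c i) (c' i)
  map_smul' a c := funext fun i => by
    ext k
    simp only [Pi.smul_apply, HahnSeries.coeff_smul, RingHom.id_apply, HahnSeries.coeff_single,
      smul_eq_mul]
    split_ifs <;> simp

theorem On_step {A : Type} [CommRing A] (n : ℤ) :
    On N A n = LinearMap.range (lev N A n) ⊔ On N A (n + 1) := by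
  refine le_antisymm (fun w hw => Submodule.mem_sup.2 ⟨lev N A n fun i => (w i).coeff n,
    LinearMap.mem_range_self _ _, w - lev N A n fun i => (w i).coeff n, fun i k hk => ?_, add_sub_cancel _ _⟩)
    (sup_le ?_ (On_mono (by omega)))
  · change ((w i) - HahnSeries.single n ((w i).coeff n)).coeff k = 0
    rw [HahnSeries.coeff_sub]
    by_cases h : k = n
    · rw [h, HahnSeries.coeff_single_same, sub_self]
    · rw [HahnSeries.coeff_single_of_ne h, hw i k (by omega), sub_zero]
  · rintro _ ⟨c, rfl⟩ i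
    exact Ord.single n _

theorem lev_inj {A : Type} [CommRing A] (n : ℤ) (c : Fin N → A)
    (h : lev N A n c ∈ On N A (n + 1)) : c = 0 := funext fun i => by
  have h1 := h i n (by omega)
  exact (HahnSeries.coeff_single_same n (c i)).symm.trans h1

theorem adm_inj {A : Type} [CommRing A] {v : ℕ × Fin N → Fin N → Ls A} (hv : Adm v) :
    Function.Injective (lin v) := by
  obtain ⟨-, n, L, h, -⟩ := hv
  exact Function.LeftInverse.injective (g := L) fun z => LinearMap.congr_fun h z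

theorem adm_bot {A : Type} [CommRing A] {v : ℕ × Fin N → Fin N → Ls A} (hv : Adm v) :
    ∃ n, LinearMap.range (lin v) ⊓ On N A n = ⊥ := by
  obtain ⟨-, n, L, h, h'⟩ := hv
  refine ⟨n, eq_bot_iff.2 ?_⟩
  rintro _ ⟨⟨z, rfl⟩, hz⟩
  have h1 : z = 0 := (LinearMap.congr_fun h z).symm.trans (h' _ hz)
  rw [h1, map_zero]
  exact Submodule.zero_mem _

/-- **Riemann-Roch.** -/
theorem rr {v : ℕ × Fin N → Fin N → Ls F} (hv : Adm v) (n : ℤ) :
    Fr (LinearMap.range (lin v)) (On N F n) ∧ ix (LinearMap.range (lin v)) (On N F n) = -n * N := by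
  have hs := fun n : ℤ => step (M := LinearMap.range (lin v)) (lev N F n) (On_step n) (lev_inj n)
  induction n using Int.induction_on with
  | zero =>
    obtain ⟨s, h⟩ := hv.1
    have : FiniteDimensional F (Finsupp.supported F F (s : Set (ℕ × Fin N))) :=
      Module.Finite.equiv (Finsupp.supportedEquivFinsupp (s : Set (ℕ × Fin N))).symm
    have h1 := index_one_add (U := pol N F ∘ₗ lin v) (W := Finsupp.supported F F (s : Set _))
      fun x => (Finsupp.mem_supported' F _).2 fun i hi => h x i hi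
    have h2 : Function.Surjective (pol N F) := fun z => ⟨_, pol_lin_std z⟩
    have h3 : LinearMap.ker (pol N F) = On N F 0 := Submodule.ext fun w => pol_eq_zero
    exact ⟨(fr_iff (adm_inj hv) h2 rfl h3).2 ⟨h1.1, h1.2.1⟩,
      by rw [ix_eq (adm_inj hv) h2 rfl h3, h1.2.2, neg_zero, zero_mul]⟩
  | succ k ih =>
    have h1 := (hs k).1.2 ih.1
    have h2 := (hs k).2 h1
    exact ⟨h1, by rw [ih.2] at h2; linarith⟩
  | pred k ih =>
    have h1 := hs (-k - 1)
    rw [sub_add_cancel] at h1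
    exact ⟨h1.1.1 ih.1, by rw [h1.2 ih.1, ih.2]; ring⟩

theorem det_ne_of_lead {k : ℤ} {s : Fin N → Fin N → Ls F}
    (h : ∀ i, s i - Pi.single i (tp F (k - 1)) ∈ On N F k) : (of s).det ≠ 0 := by
  intro h0
  obtain ⟨c, hc, h1⟩ := exists_vecMul_eq_zero_iff.2 h0
  obtain ⟨a, ha⟩ := exists_On c
  have key : ∀ n, c ∈ On N F n → c ∈ On N F (n + 1) := fun n hn j => by
    have h2 : tp F (k - 1) * c j = -∑ i, c i * (s i - Pi.single i (tp F (k - 1)) : Fin N → Ls F) j := by
      have h3 : ∑ i, c i * s i j = 0 := congrFun h1 j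
      simp only [Pi.sub_apply, mul_sub, Finset.sum_sub_distrib, h3, zero_sub, neg_neg]
      rw [Finset.sum_eq_single j (fun i _ hi => by rw [Pi.single_eq_of_ne hi.symm, mul_zero])
        (fun hj => absurd (Finset.mem_univ j) hj), Pi.single_eq_same, mul_comm]
    refine (ord_tp_mul (n := k - 1)).1 ?_
    rw [h2, show k - 1 + (n + 1) = n + k by ring]
    exact (Ord.sum _ fun i _ => (hn i).mul' (h i j)).neg
  refine hc (funext fun i => eq_zero_of_ord fun n => ?_)
  rcases le_total n a with h2 | h2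
  · exact (ha i).mono h2
  · exact Int.leInduction (motive := fun n _ => c ∈ On N F n) ha (fun n _ => key n) n h2 i

variable [Algebra ℂ F]

/-- The pairing. -/
def prg (Φ : Matrix (Fin N) (Fin N) ℂ) (l : Ls F →ₗ[F] F) :
    (Fin N → Ls F) →ₗ[F] (Fin N → Ls F) →ₗ[F] F :=
  LinearMap.mk₂ F (fun u m => l (u ⬝ᵥ cst F Φ *ᵥ m))
    (fun u u' m => by rw [add_dotProduct, map_add])
    (fun c u m => by rw [csmul, smul_dotProduct, smul_eq_mul, C_mul, map_smul])
    (fun u m m' => by rw [mulVec_add, dotProduct_add, map_add])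
    (fun c u m => by rw [csmul, mulVec_smul, dotProduct_smul, smul_eq_mul, C_mul, map_smul])

theorem det_cst_ne {Φ : Matrix (Fin N) (Fin N) ℂ} (h : Φ.det ≠ 0) : (cst F Φ).det ≠ 0 := by
  have h1 := RingHom.map_det ((HahnSeries.C : F →+* Ls F).comp (algebraMap ℂ F)) Φ
  exact fun h2 => (map_ne_zero _).2 h (h1.trans h2)

theorem prg_nondeg {Φ : Matrix (Fin N) (Fin N) ℂ} (hΦ : Φ.det ≠ 0) {l : Ls F →ₗ[F] F}
    (hl : ∀ w, Ord (-1) w → l w = w.coeff (-1)) (u : Fin N → Ls F) (h : ∀ w, prg Φ l u w = 0) :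
    u = 0 := by
  refine eq_zero_of_vecMul_eq_zero (det_cst_ne (F := F) hΦ) (funext fun i => ?_)
  by_contra h0
  set z := (u ᵥ* cst F Φ) i with hz
  have h1 : l (u ⬝ᵥ cst F Φ *ᵥ Pi.single i (tp F (-1 - z.order))) = 0 := h _
  have h2 : Ord z.order z := fun _ hk => HahnSeries.coeff_eq_zero_of_lt_order hk
  rw [dotProduct_mulVec, dotProduct_single, ← hz, mul_comm,
    hl _ (by simpa using (ord_tp_mul (n := -1 - z.order)).2 h2), coeff_tp_mul,
    show -1 - (-1 - z.order) = z.order by ring] at h1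
  exact h0 (HahnSeries.coeff_order_eq_zero.1 h1)

theorem prg_On (Φ : Matrix (Fin N) (Fin N) ℂ) {l : Ls F →ₗ[F] F}
    (hl : ∀ w, Ord (-1) w → l w = w.coeff (-1)) {n : ℤ} {u w : Fin N → Ls F} (hu : u ∈ On N F n)
    (hw : w ∈ On N F (-n)) : prg Φ l u w = 0 := by
  have h1 : Ord 0 (u ⬝ᵥ cst F Φ *ᵥ w) := Ord.sum _ fun i _ => by
    simpa using (hu i).mul' ((IntM.cst Φ).mulVec hw i)
  exact (hl _ (h1.mono (by omega))).trans (h1 _ (by omega))

/-- **Serre duality.** -/
theorem dual : DUAL := by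
  intro F _ _ N Φ hΦ l hl v M hv hM hiso
  have hrr := fun n => hM ▸ rr hv n
  set M' : Submodule F (Fin N → Ls F) := M.dualAnnihilator.comap (prg Φ l) with hM'
  have hmem : ∀ u, u ∈ M' ↔ ∀ m ∈ M, l (u ⬝ᵥ cst F Φ *ᵥ m) = 0 := fun u =>
    Submodule.mem_dualAnnihilator _
  have hle : M ≤ M' := fun u hu => (hmem u).2 (hiso u hu)
  have h1 : ∀ n, FiniteDimensional F ↥(M' ⊓ On N F n) ∧
      finrank F ↥(M' ⊓ On N F n) ≤ finrank F ((Fin N → Ls F) ⧸ (M ⊔ On N F (-n))) := fun n => by
    have := (hrr (-n)).1.2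
    refine dual_le (prg Φ l) (prg_nondeg hΦ hl) fun u hu w hw => ?_
    obtain ⟨m, hm, w', hw', rfl⟩ := Submodule.mem_sup.1 hw
    rw [map_add, prg_On Φ hl hu.2 hw', add_zero]
    exact (hmem u).1 hu.1 m hm
  have h2 : ∀ n, finrank F ↥(M ⊓ On N F n) ≤ finrank F ((Fin N → Ls F) ⧸ (M ⊔ On N F (-n))) :=
    fun n => have := (h1 n).1
      (Submodule.finrank_mono (inf_le_inf_right _ hle)).trans (h1 n).2
  have h3 : ∀ n, finrank F ((Fin N → Ls F) ⧸ (M ⊔ On N F (-n))) = finrank F ↥(M ⊓ On N F n) := by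
    intro n
    have h4 := (hrr n).2
    have h5 := (hrr (-n)).2
    have h6 := h2 n
    have h7 := h2 (-n)
    rw [neg_neg] at h7
    rw [ix] at h4 h5
    rw [neg_neg] at h5
    rw [neg_mul] at h4
    omega
  have h4 : ∀ n, M ⊓ On N F n = ⊥ → M ⊔ On N F (-n) = ⊤ := fun n h => by
    have := (hrr (-n)).1.2
    have h5 := h3 n
    rw [h, finrank_bot, finrank_zero_iff] at h5
    exact Submodule.Quotient.subsingleton_iff.1 h5
  refine ⟨fun u hu => ?_, h4 1, ?_, hM ▸ adm_bot hv, ?_⟩
  · obtain ⟨n, hn⟩ := exists_On u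
    have := (h1 n).1
    have h5 : M ⊓ On N F n = M' ⊓ On N F n :=
      Submodule.eq_of_le_of_finrank_le (inf_le_inf_right _ hle) ((h1 n).2.trans (h3 n).le)
    exact (h5.ge ⟨(hmem u).2 hu, hn⟩).1
  · have h5 := (hrr (-1)).2
    rw [ix] at h5
    obtain ⟨s, hs⟩ := exists_linearIndependent_of_le_finrank (R := F)
      (M := ↥(M ⊓ On N F (-1))) (n := N) (by omega)
    exact ⟨fun i => s i, hs.map' (Submodule.subtype _) (Submodule.ker_subtype _), fun i => (s i).2⟩
  · obtain ⟨n, hn⟩ := hM ▸ adm_bot hv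
    have h5 : ∀ i : Fin N, ∃ m ∈ M, m - Pi.single i (tp F (-n - 1)) ∈ On N F (-n) := fun i => by
      obtain ⟨m, hm, w, hw, e⟩ := Submodule.mem_sup.1
        ((h4 n hn).ge (Submodule.mem_top (x := Pi.single i (tp F (-n - 1)))))
      exact ⟨m, hm, by rw [← e, sub_add_cancel_left]; exact neg_mem hw⟩
    choose s h6 h7 using h5
    exact ⟨s, h6, det_ne_of_lead h7⟩

end

end Vale.Agent.P286ER3
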